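import Mathlib
import Vale.Agent.Lib.P256L.Fin

/-!
# P256: hyperbolic cubics with a node have a second order cone lift
-/

namespace Vale.Agent.Results.P256.NodalCubics

open MvPolynomial

/-- `p` is hyperbolic with respect to `e`: `p (e) > 0` and for every real `x` all complex roots
of `t ↦ p (t e - x)` are real. -/
def Hyperbolic {n : ℕ} (p : MvPolynomial (Fin n) ℝ) (e : Fin n → ℝ) : Prop :=
  0 < eval e p ∧ ∀ (x : Fin n → ℝ) (t : ℂ),
    aeval (fun i => t * (e i : ℂ) - (x i : ℂ)) p = 0 → t.im = 0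

/-- The closed hyperbolicity cone: all roots of `t ↦ p (t e - x)` are nonnegative. -/
def hypCone {n : ℕ} (p : MvPolynomial (Fin n) ℝ) (e : Fin n → ℝ) : Set (Fin n → ℝ) :=
  {x | ∀ t : ℝ, eval (fun i => t * e i - x i) p = 0 → 0 ≤ t}

/-- Spectrahedral shadows. -/
def IsSpectrahedralShadow {n : ℕ} (S : Set (Fin n → ℝ)) : Prop :=
  ∃ (N a : ℕ) (A₀ : Matrix (Fin N) (Fin N) ℝ) (A : Fin n → Matrix (Fin N) (Fin N) ℝ)
    (B : Fin a → Matrix (Fin N) (Fin N) ℝ),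
    A₀.IsSymm ∧ (∀ i, (A i).IsSymm) ∧ (∀ j, (B j).IsSymm) ∧
    S = {x | ∃ u : Fin a → ℝ, (A₀ + ∑ i, x i • A i + ∑ j, u j • B j).PosSemidef}

/-- Cones with a second order cone lift: linear images of sets given by finitely many
inequalities `l₀, l₂ ≥ 0`, `l₁ ^ 2 ≤ l₀ l₂` with linear forms `l₀, l₁, l₂`. -/
def HasSecondOrderConeLift {n : ℕ} (S : Set (Fin n → ℝ)) : Prop :=
  ∃ (m k : ℕ) (L : Fin k → Fin 3 → ((Fin n → ℝ) × (Fin m → ℝ)) →ₗ[ℝ] ℝ),
    S = {x | ∃ u : Fin m → ℝ, ∀ j, 0 ≤ L j 0 (x, u) ∧ 0 ≤ L j 2 (x, u) ∧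
      (L j 1 (x, u)) ^ 2 ≤ L j 0 (x, u) * L j 2 (x, u)}

/-- Let `a` be any real cubic form in `d + 1` variables `x₁, ..., x_{d+1}` which is positive at
the nonzero points of the light cone `x₁ > 0`, `x₁² = x₂² + ... + x_{d+1}²`, and let
`p = x₀ (x₁² - x₂² - ... - x_{d+1}²) - a (x₁, ..., x_{d+1})`, a cubic form in `d + 2` variables
with a node at `(1, 0, ..., 0)`. Then `p` is hyperbolic with respect to some `e`, and for all
`e` with `p (e) > 0` over the open light cone it is hyperbolic with respect to `e`, and its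
hyperbolicity cone has a second order cone lift, in particular it is a spectrahedral shadow. -/
theorem result (d : ℕ) (a : MvPolynomial (Fin (d + 1)) ℝ) (ha : a.IsHomogeneous 3)
    (hpos : ∀ z : Fin (d + 1) → ℝ, 0 < z 0 → z 0 ^ 2 = ∑ i : Fin d, z i.succ ^ 2 →
      0 < eval z a)
    (p : MvPolynomial (Fin (d + 2)) ℝ)
    (hp : p = X 0 * (X 1 ^ 2 - ∑ i : Fin d, X i.succ.succ ^ 2) - rename Fin.succ a) :
    (∃ e : Fin (d + 2) → ℝ, Hyperbolic p e) ∧
    ∀ e : Fin (d + 2) → ℝ, 0 < e 1 → ∑ i : Fin d, e i.succ.succ ^ 2 < e 1 ^ 2 →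
      0 < eval e p →
      Hyperbolic p e ∧ HasSecondOrderConeLift (hypCone p e) ∧
        IsSpectrahedralShadow (hypCone p e) := by
  have hp' : p = Vale.Agent.P256L.nodal a := hp
  subst hp'
  have key : ∀ e : Fin (d + 2) → ℝ, 0 < e 1 → ∑ i : Fin d, e i.succ.succ ^ 2 < e 1 ^ 2 →
      0 < eval e (Vale.Agent.P256L.nodal a) →
      Hyperbolic (Vale.Agent.P256L.nodal a) e ∧
        HasSecondOrderConeLift (hypCone (Vale.Agent.P256L.nodal a) e) ∧
        IsSpectrahedralShadow (hypCone (Vale.Agent.P256L.nodal a) e) := by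
    intro e he he2 hpe
    have hR := Vale.Agent.P256L.shadow_nodal ha hpos e he he2 hpe
    refine ⟨Vale.Agent.P256L.hyperbolic_nodal ha hpos e he he2 hpe, ?_, ?_⟩
    · obtain ⟨m, k, L, hL⟩ := hR
      exact ⟨m, k, L, Set.ext fun x => hL x⟩
    · obtain ⟨N, b, A₀, A, B, h0, hA, hB, h⟩ := hR.isShadow
      exact ⟨N, b, A₀, A, B, h0, hA, hB, Set.ext fun x => h x⟩
  refine ⟨?_, key⟩
  have hgrow : ∀ s : ℝ, eval (Fin.cons s (Fin.cons 1 fun _ => 0) : Fin (d + 2) → ℝ)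
      (Vale.Agent.P256L.nodal a) = s - eval (Fin.cons 1 fun _ => 0 : Fin (d + 1) → ℝ) a := by
    intro s
    unfold Vale.Agent.P256L.nodal
    simp only [map_sub, map_mul, map_pow, map_sum, eval_X, eval_rename]
    have h2 : (Fin.cons s (Fin.cons 1 fun _ => 0) : Fin (d + 2) → ℝ) ∘ Fin.succ =
        (Fin.cons 1 fun _ => 0 : Fin (d + 1) → ℝ) := by
      funext i
      rfl
    rw [h2]
    have h3 : (Fin.cons s (Fin.cons 1 fun _ => 0) : Fin (d + 2) → ℝ) 1 = 1 := rfl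
    have h4 : ∀ i : Fin d, (Fin.cons s (Fin.cons 1 fun _ => 0) : Fin (d + 2) → ℝ)
        i.succ.succ = 0 := fun i => rfl
    simp [h3, h4]
  set s := eval (Fin.cons 1 fun _ => 0 : Fin (d + 1) → ℝ) a + 1 with hs
  refine ⟨(Fin.cons s (Fin.cons 1 fun _ => 0) : Fin (d + 2) → ℝ), (key _ ?_ ?_ ?_).1⟩
  · show (0 : ℝ) < 1
    norm_num
  · show ∑ i : Fin d, (0 : ℝ) ^ 2 < 1 ^ 2
    simp
  · rw [hgrow, hs]
    linarith

end Vale.Agent.Results.P256.NodalCubics
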