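import Mathlib
import Vale.Agent.Lib.P256L.Fin3

/-!
# P256: hyperbolic cubics with a singular point through which no line passes
-/

namespace Vale.Agent.Results.P256.OneNode

open MvPolynomial

/-- `p` is hyperbolic with respect to `e`: `p (e) > 0` and for every real `x` all complex roots
of `t ↦ p (t e - x)` are real. -/
def Hyperbolic {n : ℕ} (p : MvPolynomial (Fin n) ℝ) (e : Fin n → ℝ) : Prop :=
  0 < eval e p ∧ ∀ (x : Fin n → ℝ) (t : ℂ),
    aeval (fun i => t * (e i : ℂ) - (x i : ℂ)) p = 0 → t.im = 0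

/-- The closed hyperbolicity cone: all roots of `t ↦ p (t e - x)` are nonnegative. -/
def hypCone {n : ℕ} (p : MvPolynomial (Fin n) ℝ) (e : Fin n → ℝ) : Set (Fin n → ℝ) :=
  {x | ∀ t : ℝ, eval (fun i => t * e i - x i) p = 0 → 0 ≤ t}

/-- `v` is a singular point of `p` such that no line through `v` other than the zero line lies
in `p = 0`. -/
def IsolatedSingular {n : ℕ} (p : MvPolynomial (Fin n) ℝ) (v : Fin n → ℝ) : Prop :=
  v ≠ 0 ∧ (∀ i, eval v (pderiv i p) = 0) ∧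
    ∀ x : Fin n → ℝ, (∀ s : ℝ, eval (v + s • x) p = 0) → ∃ c : ℝ, x = c • v

/-- Spectrahedral shadows. -/
def IsSpectrahedralShadow {n : ℕ} (S : Set (Fin n → ℝ)) : Prop :=
  ∃ (N a : ℕ) (A₀ : Matrix (Fin N) (Fin N) ℝ) (A : Fin n → Matrix (Fin N) (Fin N) ℝ)
    (B : Fin a → Matrix (Fin N) (Fin N) ℝ),
    A₀.IsSymm ∧ (∀ i, (A i).IsSymm) ∧ (∀ j, (B j).IsSymm) ∧
    S = {x | ∃ u : Fin a → ℝ, (A₀ + ∑ i, x i • A i + ∑ j, u j • B j).PosSemidef}

/-- Cones with a second order cone lift: linear images of sets given by finitely many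
inequalities `l₀, l₂ ≥ 0`, `l₁ ^ 2 ≤ l₀ l₂` with linear forms `l₀, l₁, l₂`. -/
def HasSecondOrderConeLift {n : ℕ} (S : Set (Fin n → ℝ)) : Prop :=
  ∃ (m k : ℕ) (L : Fin k → Fin 3 → ((Fin n → ℝ) × (Fin m → ℝ)) →ₗ[ℝ] ℝ),
    S = {x | ∃ u : Fin m → ℝ, ∀ j, 0 ≤ L j 0 (x, u) ∧ 0 ≤ L j 2 (x, u) ∧
      (L j 1 (x, u)) ^ 2 ≤ L j 0 (x, u) * L j 2 (x, u)}

/-- Let `p` be a cubic form in `n ≥ 3` variables, hyperbolic with respect to `e`, with a
singular real point `v ≠ 0` such that no line through `v` in real projective space lies in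
`p = 0`. Then the hyperbolicity cone of `p` has a second order cone lift, in particular it is a
spectrahedral shadow. The class contains, for all `d ≥ 1` and all cubic forms `a` in `d + 1`
variables positive at the nonzero points of the light cone, the cubic form
`x₀ (x₁² - x₂² - ... - x_{d+1}²) - a (x₁, ..., x_{d+1})`. -/
theorem result :
    (∀ (n : ℕ), 3 ≤ n → ∀ (p : MvPolynomial (Fin n) ℝ), p.IsHomogeneous 3 →
      ∀ e : Fin n → ℝ, Hyperbolic p e → (∃ v : Fin n → ℝ, IsolatedSingular p v) →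
        HasSecondOrderConeLift (hypCone p e) ∧ IsSpectrahedralShadow (hypCone p e)) ∧
    ∀ (d : ℕ) (a : MvPolynomial (Fin (d + 1)) ℝ), a.IsHomogeneous 3 →
      (∀ z : Fin (d + 1) → ℝ, 0 < z 0 → z 0 ^ 2 = ∑ i : Fin d, z i.succ ^ 2 → 0 < eval z a) →
      ∀ p : MvPolynomial (Fin (d + 2)) ℝ,
        p = X 0 * (X 1 ^ 2 - ∑ i : Fin d, X i.succ.succ ^ 2) - rename Fin.succ a →
        IsolatedSingular p (Pi.single 0 1) ∧
        ∀ e : Fin (d + 2) → ℝ, 0 < e 1 → ∑ i : Fin d, e i.succ.succ ^ 2 < e 1 ^ 2 →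
          0 < eval e p → Hyperbolic p e := by
  constructor
  · rintro n hn p hp e he ⟨v, hv, hs, hl⟩
    have hR := Vale.Agent.P256L.main2 hn p hp e he v hv hs hl
    refine ⟨?_, ?_⟩
    · obtain ⟨m, k, L, hL⟩ := hR
      exact ⟨m, k, L, Set.ext fun x => hL x⟩
    · obtain ⟨N, b, A₀, A, B, h0, hA, hB, h⟩ := hR.isShadow
      exact ⟨N, b, A₀, A, B, h0, hA, hB, Set.ext fun x => h x⟩
  · intro d a ha hpos p hp
    have hp' : p = Vale.Agent.P256L.nodal a := hp
    subst hp'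
    refine ⟨⟨?_, Vale.Agent.P256L.pderiv_nodal ha, Vale.Agent.P256L.noline_nodal ha hpos⟩, ?_⟩
    · intro h
      have h1 := congrFun h 0
      rw [Pi.single_eq_same] at h1
      exact one_ne_zero h1
    · intro e he he2 hpe
      exact Vale.Agent.P256L.hyperbolic_nodal ha hpos e he he2 hpe

end Vale.Agent.Results.P256.OneNode
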